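import Mathlib

/-! # P158: geodesic rays in strips, deterministic part -/

namespace Vale.Agent.P158

/-- the vertices of the square lattice -/
abbrev Vert : Type := ℤ × ℤ

/-- nearest neighbours -/
def Adj (u v : Vert) : Prop := |u.1 - v.1| + |u.2 - v.2| = 1

/-- The unoriented nearest-neighbour edges: `((x, y), false)` joins `(x, y)` and `(x + 1, y)`,
`((x, y), true)` joins `(x, y)` and `(x, y + 1)`. -/
abbrev Edge : Type := (ℤ × ℤ) × Bool

/-- the edge joining two neighbours -/
def edge (u v : Vert) : Edge := ((min u.1 v.1, min u.2 v.2), decide (u.1 = v.1))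

/-- there is a nearest-neighbour path from one vertex to another one whose weights sum to `c` -/
inductive PathCost (w : Edge → ℝ) : Vert → Vert → ℝ → Prop
  | refl (x : Vert) : PathCost w x x 0
  | step (x y z : Vert) (c : ℝ) : PathCost w x y c → Adj y z →
      PathCost w x z (c + w (edge y z))

/-- the passage time -/
noncomputable def T (w : Edge → ℝ) (x y : Vert) : ℝ := sInf {c | PathCost w x y c}

/-- geodesic rays -/
structure IsRay (w : Edge → ℝ) (v : ℕ → Vert) : Prop where
  inj : Function.Injective v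
  adj : ∀ k, Adj (v k) (v (k + 1))
  geo : ∀ i j, i < j → ∑ k ∈ Finset.Ico i j, w (edge (v k) (v (k + 1))) = T w (v i) (v j)

theorem Adj.symm {u v : Vert} (h : Adj u v) : Adj v u := by
  unfold Adj at *
  rw [abs_sub_comm v.1, abs_sub_comm v.2]
  exact h

theorem edge_comm (u v : Vert) : edge u v = edge v u := by
  unfold edge
  rw [min_comm v.1, min_comm v.2]
  congr 1
  simp only [eq_comm]

theorem PathCost.trans {w : Edge → ℝ} {x y z : Vert} {c d : ℝ} (h : PathCost w x y c)
    (h' : PathCost w y z d) : PathCost w x z (c + d) := by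
  induction h' with
  | refl => simpa using h
  | step y' z' d' _ hadj ih =>
    rw [← add_assoc]
    exact PathCost.step _ _ _ _ ih hadj

theorem PathCost.symm {w : Edge → ℝ} {x y : Vert} {c : ℝ} (h : PathCost w x y c) :
    PathCost w y x c := by
  induction h with
  | refl => exact PathCost.refl x
  | step y z c _ hadj ih =>
    have h1 : PathCost w z y (0 + w (edge z y)) := PathCost.step z z y 0 (PathCost.refl z) hadj.symm
    have h2 := h1.trans ih
    rw [edge_comm z y, zero_add, add_comm] at h2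
    exact h2

theorem PathCost.nonneg {w : Edge → ℝ} (hw : ∀ e, 0 ≤ w e) {x y : Vert} {c : ℝ}
    (h : PathCost w x y c) : 0 ≤ c := by
  induction h with
  | refl => exact le_rfl
  | step y z c _ _ ih => exact add_nonneg ih (hw _)

theorem T_le {w : Edge → ℝ} (hw : ∀ e, 0 ≤ w e) {x y : Vert} {c : ℝ} (h : PathCost w x y c) :
    T w x y ≤ c := csInf_le ⟨0, fun _ h => h.nonneg hw⟩ h

theorem up {w : Edge → ℝ} {a : ℝ} (x y : ℤ) (n : ℕ)
    (h : ∀ k : ℕ, k < n → w ((x, y + k), true) ≤ a) :
    ∃ c, c ≤ n * a ∧ PathCost w (x, y) (x, y + n) c := by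
  induction n with
  | zero => exact ⟨0, by simp, by simpa using PathCost.refl (x, y)⟩
  | succ n ih =>
    obtain ⟨c, hc, hp⟩ := ih fun k hk => h k (by omega)
    have hadj : Adj (x, y + n) (x, y + (n + 1 : ℕ)) := by
      unfold Adj
      push_cast
      have : y + (n : ℤ) - (y + (n + 1)) = -1 := by ring
      simp [this]
    refine ⟨_, ?_, PathCost.step _ _ _ _ hp hadj⟩
    have he : edge (x, y + n) (x, y + (n + 1 : ℕ)) = ((x, y + n), true) := by
      unfold edge
      simp
    rw [he]
    have := h n (by omega)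
    push_cast
    linarith

theorem right {w : Edge → ℝ} {a : ℝ} (x y : ℤ) (n : ℕ)
    (h : ∀ k : ℕ, k < n → w ((x + k, y), false) ≤ a) :
    ∃ c, c ≤ n * a ∧ PathCost w (x, y) (x + n, y) c := by
  induction n with
  | zero => exact ⟨0, by simp, by simpa using PathCost.refl (x, y)⟩
  | succ n ih =>
    obtain ⟨c, hc, hp⟩ := ih fun k hk => h k (by omega)
    have hadj : Adj (x + n, y) (x + (n + 1 : ℕ), y) := by
      unfold Adj
      push_cast
      have : x + (n : ℤ) - (x + (n + 1)) = -1 := by ring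
      simp [this]
    refine ⟨_, ?_, PathCost.step _ _ _ _ hp hadj⟩
    have he : edge (x + n, y) (x + (n + 1 : ℕ), y) = ((x + n, y), false) := by
      unfold edge
      simp
    rw [he]
    have := h n (by omega)
    push_cast
    linarith

/-- the good block between the columns `x₀` and `x₀ + L` -/
structure Good (w : Edge → ℝ) (a b : ℝ) (W L : ℕ) (x₀ : ℤ) : Prop where
  slow : ∀ x y : ℤ, x₀ ≤ x → x < x₀ + L → -W ≤ y → y ≤ W → b ≤ w ((x, y), false)
  top : ∀ x : ℤ, x₀ ≤ x → x < x₀ + L → w ((x, W + 1), false) ≤ a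
  left : ∀ y : ℤ, -W ≤ y → y ≤ W → w ((x₀, y), true) ≤ a
  right : ∀ y : ℤ, -W ≤ y → y ≤ W → w ((x₀ + L, y), true) ≤ a

theorem Good.detour {w : Edge → ℝ} {a b : ℝ} {W L : ℕ} {x₀ : ℤ} (h : Good w a b W L x₀)
    (ha : 0 ≤ a) {y y' : ℤ} (h1 : -W ≤ y) (h2 : y ≤ W) (h1' : -W ≤ y') (h2' : y' ≤ W) :
    ∃ c, c ≤ a * (L + 2 * (2 * W + 1)) ∧ PathCost w (x₀, y) (x₀ + L, y') c := by
  obtain ⟨n, hn⟩ : ∃ n : ℕ, y + n = W + 1 := ⟨(W + 1 - y).toNat, by omega⟩
  obtain ⟨n', hn'⟩ : ∃ n : ℕ, y' + n = W + 1 := ⟨(W + 1 - y').toNat, by omega⟩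
  obtain ⟨c₁, hc₁, p₁⟩ := up (w := w) (a := a) x₀ y n fun k hk => h.left _ (by omega) (by omega)
  obtain ⟨c₂, hc₂, p₂⟩ := up (w := w) (a := a) (x₀ + L) y' n'
    fun k hk => h.right _ (by omega) (by omega)
  obtain ⟨c₃, hc₃, p₃⟩ := Vale.Agent.P158.right (w := w) (a := a) x₀ (W + 1) L
    fun k hk => h.top _ (by omega) (by omega)
  rw [hn] at p₁
  rw [hn'] at p₂
  refine ⟨_, ?_, (p₁.trans p₃).trans p₂.symm⟩
  have e1 : (n : ℝ) ≤ 2 * W + 1 := by
    have : (n : ℤ) ≤ 2 * W + 1 := by omega
    exact_mod_cast this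
  have e2 : (n' : ℝ) ≤ 2 * W + 1 := by
    have : (n' : ℤ) ≤ 2 * W + 1 := by omega
    exact_mod_cast this
  have e3 := mul_le_mul_of_nonneg_right e1 ha
  have e4 := mul_le_mul_of_nonneg_right e2 ha
  linarith

theorem crossing {f : ℕ → ℤ} (hf : ∀ k, |f (k + 1) - f k| ≤ 1) {A B : ℤ} (hAB : A < B)
    (h0 : f 0 ≤ A) {n : ℕ} (hn : B ≤ f n) :
    ∃ i j, i < j ∧ f i = A ∧ f j = B ∧ ∀ k, i ≤ k → k ≤ j → A ≤ f k ∧ f k ≤ B := by
  classical
  have hex : ∃ j, B ≤ f j := ⟨n, hn⟩
  set j := Nat.find hex with hj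
  have hj1 : B ≤ f j := Nat.find_spec hex
  have hj2 : ∀ k, k < j → f k < B := fun k hk => not_le.1 (Nat.find_min hex hk)
  have hj0 : j ≠ 0 := by
    intro h
    rw [h] at hj1
    omega
  have hjB : f j = B := by
    have h1 := hj2 (j - 1) (by omega)
    have h2 := abs_le.1 (hf (j - 1))
    have h3 : j - 1 + 1 = j := by omega
    rw [h3] at h2
    omega
  -- the last time at most `A` before `j`
  have hex' : ∃ m, m ≤ j ∧ f (j - m) ≤ A := ⟨j, le_rfl, by simpa using h0⟩
  set m := Nat.find hex' with hm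
  obtain ⟨hm1, hm2⟩ := Nat.find_spec hex'
  have hm3 : ∀ k, k < m → A < f (j - k) := fun k hk => by
    have := Nat.find_min hex' hk
    rw [not_and, not_le] at this
    exact this (by omega)
  have hm0 : m ≠ 0 := by
    intro h
    rw [← hm, h] at hm2
    simp only [Nat.sub_zero] at hm2
    omega
  have hi : f (j - m) = A := by
    have h1 := hm3 (m - 1) (by omega)
    have h2 := abs_le.1 (hf (j - m))
    have h3 : j - m + 1 = j - (m - 1) := by omega
    rw [h3] at h2
    rw [← hm] at hm2
    omega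
  refine ⟨j - m, j, by omega, hi, hjB, fun k hk1 hk2 => ⟨?_, ?_⟩⟩
  · rcases eq_or_lt_of_le hk1 with h | h
    · rw [← h, hi]
    · have := hm3 (j - k) (by omega)
      have h3 : j - (j - k) = k := by omega
      rw [h3] at this
      exact this.le
  · rcases eq_or_lt_of_le hk2 with h | h
    · rw [h, hjB]
    · exact (hj2 k h).le

theorem cost_ge {w : Edge → ℝ} (hw : ∀ e, 0 ≤ w e) {b : ℝ} {W L : ℕ} {x₀ : ℤ}
    (h : ∀ x y : ℤ, x₀ ≤ x → x < x₀ + L → -W ≤ y → y ≤ W → b ≤ w ((x, y), false))
    {v : ℕ → Vert} (hv : ∀ k, Adj (v k) (v (k + 1))) {i j : ℕ} (hij : i ≤ j)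
    (hx : ∀ k, i ≤ k → k ≤ j → x₀ ≤ (v k).1 ∧ (v k).1 ≤ x₀ + L)
    (hy : ∀ k, -(W : ℤ) ≤ (v k).2 ∧ (v k).2 ≤ W) :
    b * |(((v j).1 - (v i).1 : ℤ) : ℝ)| ≤ ∑ k ∈ Finset.Ico i j, w (edge (v k) (v (k + 1))) := by
  by_cases hb : 0 ≤ b
  · induction j, hij using Nat.le_induction with
    | base => simp
    | succ j hij ih =>
      rw [Finset.sum_Ico_succ_top hij]
      have h1 := ih fun k hk1 hk2 => hx k hk1 (by omega)
      have h2 : b * |(((v (j + 1)).1 - (v j).1 : ℤ) : ℝ)| ≤ w (edge (v j) (v (j + 1))) := by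
        have hadj := hv j
        unfold Adj at hadj
        have e1 := hx j hij (by omega)
        have e2 := hx (j + 1) (by omega) le_rfl
        have e3 := hy j
        have e4 := hy (j + 1)
        by_cases hxx : (v j).1 = (v (j + 1)).1
        · rw [hxx, sub_self]
          simp only [Int.cast_zero, abs_zero, mul_zero]
          exact hw _
        · have habs : |(v (j + 1)).1 - (v j).1| = 1 := by
            have : |(v j).1 - (v (j + 1)).1| ≠ 0 := by
              rw [abs_ne_zero]
              omega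
            have h5 := abs_nonneg ((v j).1 - (v (j + 1)).1)
            have h6 := abs_nonneg ((v j).2 - (v (j + 1)).2)
            rw [abs_sub_comm]
            omega
          have hyy : (v j).2 = (v (j + 1)).2 := by
            rw [abs_sub_comm] at habs
            rw [habs] at hadj
            have : |(v j).2 - (v (j + 1)).2| = 0 := by omega
            rw [abs_eq_zero] at this
            omega
          have he : edge (v j) (v (j + 1)) =
              ((min (v j).1 (v (j + 1)).1, (v j).2), false) := by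
            unfold edge
            rw [← hyy, min_self]
            congr 1
            simpa using hxx
          rw [he, ← Int.cast_abs, habs, Int.cast_one, mul_one]
          apply h _ _ _ _ e3.1 e3.2
          · exact le_min e1.1 e2.1
          · rcases lt_or_gt_of_ne hxx with h7 | h7
            · rw [min_eq_left h7.le]
              omega
            · rw [min_eq_right h7.le]
              omega
      have h3 : |(((v (j + 1)).1 - (v i).1 : ℤ) : ℝ)| ≤
          |(((v (j + 1)).1 - (v j).1 : ℤ) : ℝ)| + |(((v j).1 - (v i).1 : ℤ) : ℝ)| := by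
        have : (((v (j + 1)).1 - (v i).1 : ℤ) : ℝ) =
            (((v (j + 1)).1 - (v j).1 : ℤ) : ℝ) + (((v j).1 - (v i).1 : ℤ) : ℝ) := by
          push_cast
          ring
        rw [this]
        exact abs_add_le _ _
      have h4 := mul_le_mul_of_nonneg_left h3 hb
      linarith
  · have h1 : b * |(((v j).1 - (v i).1 : ℤ) : ℝ)| ≤ 0 :=
      mul_nonpos_of_nonpos_of_nonneg (by linarith) (abs_nonneg _)
    exact h1.trans (Finset.sum_nonneg fun _ _ => hw _)

end Vale.Agent.P158
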