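import Vale.Agent.Lib.P158.Det

/-! # P158: good blocks exclude geodesic rays in a strip -/

namespace Vale.Agent.P158

theorem Good.no_right {w : Edge → ℝ} (hw : ∀ e, 0 ≤ w e) {a b : ℝ} {W L : ℕ} {x₀ : ℤ}
    (h : Good w a b W L x₀) (ha : 0 ≤ a) (hL : 0 < L) (hab : a * (L + 2 * (2 * W + 1)) < b * L)
    {v : ℕ → Vert} (hv : IsRay w v) (hy : ∀ k, -(W : ℤ) ≤ (v k).2 ∧ (v k).2 ≤ W)
    (h0 : (v 0).1 ≤ x₀) {n : ℕ} (hn : x₀ + L ≤ (v n).1) : False := by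
  have hf : ∀ k, |(v (k + 1)).1 - (v k).1| ≤ 1 := by
    intro k
    have h1 := hv.adj k
    unfold Adj at h1
    have h2 := abs_nonneg ((v k).2 - (v (k + 1)).2)
    rw [abs_sub_comm]
    omega
  obtain ⟨i, j, hij, hi, hj, hk⟩ := crossing (f := fun k => (v k).1) hf
    (A := x₀) (B := x₀ + L) (by omega) h0 hn
  have h1 := cost_ge hw h.slow hv.adj hij.le hk hy
  rw [hi, hj, hv.geo i j hij] at h1
  have h2 : (((x₀ + L - x₀ : ℤ)) : ℝ) = L := by push_cast; ring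
  rw [h2, abs_of_nonneg (Nat.cast_nonneg L)] at h1
  obtain ⟨c, hc, hp⟩ := h.detour ha (hy i).1 (hy i).2 (hy j).1 (hy j).2
  have e1 : (x₀, (v i).2) = v i := Prod.ext hi.symm rfl
  have e2 : (x₀ + L, (v j).2) = v j := Prod.ext hj.symm rfl
  rw [e1, e2] at hp
  have h3 := T_le hw hp
  linarith

theorem Good.no_left {w : Edge → ℝ} (hw : ∀ e, 0 ≤ w e) {a b : ℝ} {W L : ℕ} {x₀ : ℤ}
    (h : Good w a b W L x₀) (ha : 0 ≤ a) (hL : 0 < L) (hab : a * (L + 2 * (2 * W + 1)) < b * L)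
    {v : ℕ → Vert} (hv : IsRay w v) (hy : ∀ k, -(W : ℤ) ≤ (v k).2 ∧ (v k).2 ≤ W)
    (h0 : x₀ + L ≤ (v 0).1) {n : ℕ} (hn : (v n).1 ≤ x₀) : False := by
  have hf : ∀ k, |(-(v (k + 1)).1) - (-(v k).1)| ≤ 1 := by
    intro k
    have h1 := hv.adj k
    unfold Adj at h1
    have h2 := abs_nonneg ((v k).2 - (v (k + 1)).2)
    have h3 : (-(v (k + 1)).1) - (-(v k).1) = (v k).1 - (v (k + 1)).1 := by ring
    rw [h3]
    omega
  obtain ⟨i, j, hij, hi, hj, hk⟩ := crossing (f := fun k => -(v k).1) hf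
    (A := -(x₀ + L)) (B := -x₀) (by omega) (by simpa using h0) (n := n) (by simpa using hn)
  have hi' : (v i).1 = x₀ + L := by
    have : -(v i).1 = -(x₀ + L) := hi
    omega
  have hj' : (v j).1 = x₀ := by
    have : -(v j).1 = -x₀ := hj
    omega
  have hk' : ∀ k, i ≤ k → k ≤ j → x₀ ≤ (v k).1 ∧ (v k).1 ≤ x₀ + L := by
    intro k hk1 hk2
    have h5 := (hk k hk1 hk2).1
    have h6 := (hk k hk1 hk2).2
    constructor <;> omega
  have h1 := cost_ge hw h.slow hv.adj hij.le hk' hy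
  rw [hi', hj', hv.geo i j hij] at h1
  have h2 : (((x₀ - (x₀ + L) : ℤ)) : ℝ) = -L := by push_cast; ring
  rw [h2, abs_neg, abs_of_nonneg (Nat.cast_nonneg L)] at h1
  obtain ⟨c, hc, hp⟩ := h.detour ha (hy j).1 (hy j).2 (hy i).1 (hy i).2
  have e1 : (x₀, (v j).2) = v j := Prod.ext hj'.symm rfl
  have e2 : (x₀ + L, (v i).2) = v i := Prod.ext hi'.symm rfl
  rw [e1, e2] at hp
  have h3 := T_le hw hp.symm
  linarith

/-- **Deterministic part.** -/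
theorem no_ray {w : Edge → ℝ} (hw : ∀ e, 0 ≤ w e) {a b : ℝ} {W L : ℕ} (ha : 0 ≤ a) (hL : 0 < L)
    (hab : a * (L + 2 * (2 * W + 1)) < b * L) (hR : ∀ N : ℤ, ∃ x₀, N ≤ x₀ ∧ Good w a b W L x₀)
    (hLe : ∀ N : ℤ, ∃ x₀, x₀ ≤ N ∧ Good w a b W L x₀) {v : ℕ → Vert} (hv : IsRay w v)
    (hy : ∀ k, -(W : ℤ) ≤ (v k).2 ∧ (v k).2 ≤ W) : False := by
  by_cases h1 : ∀ N : ℤ, ∃ n, N ≤ (v n).1
  · obtain ⟨x₀, hx, hg⟩ := hR (v 0).1
    obtain ⟨n, hn⟩ := h1 (x₀ + L)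
    exact hg.no_right hw ha hL hab hv hy hx hn
  · by_cases h2 : ∀ N : ℤ, ∃ n, (v n).1 ≤ N
    · obtain ⟨x₀, hx, hg⟩ := hLe ((v 0).1 - L)
      obtain ⟨n, hn⟩ := h2 x₀
      exact hg.no_left hw ha hL hab hv hy (by omega) hn
    · push Not at h1 h2
      obtain ⟨N₁, h1⟩ := h1
      obtain ⟨N₂, h2⟩ := h2
      have hfin : (Set.range v).Finite := by
        refine ((Finset.Icc N₂ N₁) ×ˢ (Finset.Icc (-(W : ℤ)) W)).finite_toSet.subset ?_
        rintro _ ⟨k, rfl⟩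
        simp only [Finset.coe_product, Finset.coe_Icc, Set.mem_prod, Set.mem_Icc]
        exact ⟨⟨(h2 k).le, (h1 k).le⟩, hy k⟩
      exact Set.infinite_range_of_injective hv.inj hfin

end Vale.Agent.P158
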