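import Vale.Agent.Lib.P158.NoRay

/-! # P158: good blocks occur infinitely often -/

namespace Vale.Agent.P158

open MeasureTheory ProbabilityTheory Filter
open scoped ENNReal

/-- the edges on which `Good` depends -/
noncomputable def blockEdges (W L : ℕ) (x₀ : ℤ) : Finset Edge :=
  ((Finset.Icc x₀ (x₀ + L - 1)) ×ˢ (Finset.Icc (-(W : ℤ)) (W + 1))) ×ˢ {false} ∪
    (({x₀, x₀ + L} : Finset ℤ) ×ˢ (Finset.Icc (-(W : ℤ)) W)) ×ˢ {true}

open Classical in
/-- the required values -/
noncomputable def req (a b : ℝ) (W : ℕ) (e : Edge) : Set ℝ :=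
  if e.2 = false ∧ e.1.2 ≤ W then Set.Ici b else Set.Iic a

theorem measurableSet_req (a b : ℝ) (W : ℕ) (e : Edge) : MeasurableSet (req a b W e) := by
  unfold req
  split_ifs
  · exact measurableSet_Ici
  · exact measurableSet_Iic

theorem good_of_req {w : Edge → ℝ} {a b : ℝ} {W L : ℕ} {x₀ : ℤ}
    (h : ∀ e ∈ blockEdges W L x₀, w e ∈ req a b W e) : Good w a b W L x₀ where
  slow := by
    intro x y h1 h2 h3 h4
    have h5 := h ((x, y), false) (by
      unfold blockEdges
      simp only [Finset.mem_union, Finset.mem_product, Finset.mem_Icc, Finset.mem_singleton]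
      exact Or.inl ⟨⟨⟨by omega, by omega⟩, by omega, by omega⟩, trivial⟩)
    unfold req at h5
    rw [if_pos ⟨rfl, h4⟩] at h5
    exact h5
  top := by
    intro x h1 h2
    have h5 := h ((x, W + 1), false) (by
      unfold blockEdges
      simp only [Finset.mem_union, Finset.mem_product, Finset.mem_Icc, Finset.mem_singleton]
      exact Or.inl ⟨⟨⟨by omega, by omega⟩, by omega, by omega⟩, trivial⟩)
    unfold req at h5
    rw [if_neg (by simp)] at h5
    exact h5
  left := by
    intro y h3 h4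
    have h5 := h ((x₀, y), true) (by
      unfold blockEdges
      simp only [Finset.mem_union, Finset.mem_product, Finset.mem_Icc, Finset.mem_singleton,
        Finset.mem_insert]
      exact Or.inr ⟨⟨by simp, by omega, by omega⟩, trivial⟩)
    unfold req at h5
    rw [if_neg (by simp)] at h5
    exact h5
  right := by
    intro y h3 h4
    have h5 := h ((x₀ + L, y), true) (by
      unfold blockEdges
      simp only [Finset.mem_union, Finset.mem_product, Finset.mem_Icc, Finset.mem_singleton,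
        Finset.mem_insert]
      exact Or.inr ⟨⟨by simp, by omega, by omega⟩, trivial⟩)
    unfold req at h5
    rw [if_neg (by simp)] at h5
    exact h5

theorem mem_block {W L : ℕ} {x₀ : ℤ} {e : Edge} (h : e ∈ blockEdges W L x₀) :
    x₀ ≤ e.1.1 ∧ e.1.1 ≤ x₀ + L := by
  unfold blockEdges at h
  simp only [Finset.mem_union, Finset.mem_product, Finset.mem_Icc, Finset.mem_singleton,
    Finset.mem_insert] at h
  omega

theorem card_block (W L : ℕ) (x₀ : ℤ) :
    (blockEdges W L x₀).card ≤ L * (2 * W + 2) + 2 * (2 * W + 1) := by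
  unfold blockEdges
  refine (Finset.card_union_le _ _).trans ?_
  apply Nat.add_le_add
  · rw [Finset.card_product, Finset.card_product, Finset.card_singleton, mul_one, Int.card_Icc,
      Int.card_Icc]
    have e1 : (x₀ + (L : ℤ) - 1 + 1 - x₀).toNat = L := by omega
    have e2 : ((W : ℤ) + 1 + 1 - -(W : ℤ)).toNat = 2 * W + 2 := by omega
    rw [e1, e2]
  · rw [Finset.card_product, Finset.card_product, Finset.card_singleton, mul_one, Int.card_Icc]
    have e2 : ((W : ℤ) + 1 - -(W : ℤ)).toNat = 2 * W + 1 := by omega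
    rw [e2]
    exact Nat.mul_le_mul_right _ Finset.card_le_two

variable {Ω : Type*} [MeasurableSpace Ω] {P : Measure Ω} [IsProbabilityMeasure P]
  {t : Edge → Ω → ℝ} {G : Measure ℝ}

/-- **Blocks.** Good blocks occur infinitely often along sequences of disjoint blocks. -/
theorem frequently_good (hm : ∀ e, Measurable (t e)) (hind : iIndepFun t P)
    (hG : ∀ e, P.map (t e) = G) {a b : ℝ} (ha : G (Set.Iic a) ≠ 0) (hb : G (Set.Ici b) ≠ 0)
    (W L : ℕ) (x : ℕ → ℤ) (hx : ∀ m m', m ≠ m' → (L : ℤ) < |x m - x m'|) :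
    ∀ᵐ ω ∂P, ∃ᶠ m in atTop, Good (fun e => t e ω) a b W L (x m) := by
  classical
  let E : ℕ → Set Ω := fun m => ⋂ e ∈ blockEdges W L (x m), t e ⁻¹' req a b W e
  have hEm : ∀ m, MeasurableSet (E m) := fun m =>
    Finset.measurableSet_biInter _ fun e _ => hm e (measurableSet_req a b W e)
  have hdisj : ∀ m m', m ≠ m' → Disjoint (blockEdges W L (x m)) (blockEdges W L (x m')) := by
    intro m m' hmm
    rw [Finset.disjoint_left]
    intro e h1 h2
    have h3 := mem_block h1
    have h4 := mem_block h2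
    have h5 := hx m m' hmm
    rcases abs_cases (x m - x m') with h | h <;> omega
  have hmeas : ∀ S : Finset Edge, P (⋂ e ∈ S, t e ⁻¹' req a b W e) =
      ∏ e ∈ S, P (t e ⁻¹' req a b W e) := fun S =>
    hind.measure_inter_preimage_eq_mul S fun e _ => measurableSet_req a b W e
  have hindep : iIndepSet E P := by
    rw [iIndepSet_iff_meas_biInter hEm]
    intro s
    have h1 : (⋂ m ∈ s, E m) = ⋂ e ∈ s.biUnion fun m => blockEdges W L (x m),
        t e ⁻¹' req a b W e := by
      rw [Finset.set_biInter_biUnion]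
    rw [h1, hmeas, Finset.prod_biUnion fun m _ m' _ h => hdisj m m' h]
    exact Finset.prod_congr rfl fun m _ => (hmeas _).symm
  set q : ℝ≥0∞ := min (G (Set.Iic a)) (G (Set.Ici b)) with hq
  have hq0 : q ≠ 0 := by
    rw [hq]
    intro h
    rcases min_choice (G (Set.Iic a)) (G (Set.Ici b)) with h' | h' <;> rw [h'] at h
    · exact ha h
    · exact hb h
  have hGp : IsProbabilityMeasure G := by
    rw [← hG ((0, 0), false)]
    exact Measure.isProbabilityMeasure_map (hm _).aemeasurable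
  have hq1 : q ≤ 1 := (min_le_left _ _).trans prob_le_one
  have hge : ∀ e, q ≤ P (t e ⁻¹' req a b W e) := by
    intro e
    rw [← Measure.map_apply (hm e) (measurableSet_req a b W e), hG]
    unfold req
    split_ifs
    · exact min_le_right _ _
    · exact min_le_left _ _
  have hEge : ∀ m, q ^ (L * (2 * W + 2) + 2 * (2 * W + 1)) ≤ P (E m) := by
    intro m
    change _ ≤ P (⋂ e ∈ blockEdges W L (x m), t e ⁻¹' req a b W e)
    rw [hmeas]
    calc q ^ (L * (2 * W + 2) + 2 * (2 * W + 1)) ≤ q ^ (blockEdges W L (x m)).card :=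
          pow_le_pow_right_of_le_one' hq1 (card_block W L _)
      _ = ∏ _e ∈ blockEdges W L (x m), q := by rw [Finset.prod_const]
      _ ≤ _ := Finset.prod_le_prod' fun e _ => hge e
  have hsum : ∑' m, P (E m) = ∞ := by
    have h1 : ∑' _m : ℕ, q ^ (L * (2 * W + 2) + 2 * (2 * W + 1)) = ∞ :=
      ENNReal.tsum_const_eq_top_of_ne_zero (pow_ne_zero _ hq0)
    rw [eq_top_iff, ← h1]
    exact ENNReal.tsum_le_tsum hEge
  have h1 := measure_limsup_eq_one hEm hindep hsum
  have h2 : ∀ᵐ ω ∂P, ω ∈ limsup E atTop := by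
    rw [← prob_compl_eq_zero_iff (MeasurableSet.measurableSet_limsup hEm)] at h1
    exact h1
  filter_upwards [h2] with ω hω
  rw [mem_limsup_iff_frequently_mem] at hω
  refine hω.mono fun m hm => good_of_req fun e he => ?_
  exact Set.mem_iInter₂.1 hm e he

/-- **Rows.** Almost surely the second coordinates of the vertices of a geodesic ray are
unbounded. -/
theorem unbounded_snd (hm : ∀ e, Measurable (t e)) (hind : iIndepFun t P)
    (hG : ∀ e, P.map (t e) = G) (h0 : G (Set.Iio 0) = 0) {a b : ℝ} (hab : a < b)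
    (ha : G (Set.Iic a) ≠ 0) (hb : G (Set.Ici b) ≠ 0) :
    ∀ᵐ ω ∂P, ∀ v : ℕ → Vert, IsRay (fun e => t e ω) v → ∀ W : ℕ, ∃ k, (W : ℤ) < |(v k).2| := by
  have hnn : ∀ᵐ ω ∂P, ∀ e, 0 ≤ t e ω := by
    rw [ae_all_iff]
    intro e
    have h1 : P (t e ⁻¹' Set.Iio 0) = 0 := by
      rw [← Measure.map_apply (hm e) measurableSet_Iio, hG, h0]
    rw [ae_iff]
    refine measure_mono_null ?_ h1
    intro ω hω
    exact not_le.1 hω
  have ha0 : 0 ≤ a := by
    by_contra hneg
    rw [not_le] at hneg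
    apply ha
    refine measure_mono_null ?_ h0
    intro x hx
    exact lt_of_le_of_lt hx hneg
  have hL : ∀ W : ℕ, ∃ L : ℕ, 0 < L ∧ a * (L + 2 * (2 * W + 1)) < b * L := by
    intro W
    obtain ⟨L, hL⟩ := exists_nat_gt (a * (2 * (2 * W + 1)) / (b - a))
    refine ⟨L + 1, Nat.succ_pos L, ?_⟩
    have hba : 0 < b - a := by linarith
    rw [div_lt_iff₀ hba] at hL
    push_cast
    nlinarith
  choose L hL0 hL1 using hL
  have hR : ∀ᵐ ω ∂P, ∀ W : ℕ, ∃ᶠ m in atTop,
      Good (fun e => t e ω) a b W (L W) ((fun m : ℕ => 2 * (L W : ℤ) * m) m) := by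
    rw [ae_all_iff]
    intro W
    apply frequently_good hm hind hG ha hb
    intro m m' hmm
    have h1 : (1 : ℤ) ≤ |(m : ℤ) - m'| := Int.one_le_abs (by omega)
    have h2 : 2 * (L W : ℤ) * m - 2 * (L W : ℤ) * m' = 2 * (L W : ℤ) * (m - m') := by ring
    rw [h2, abs_mul, abs_of_nonneg (by positivity : (0 : ℤ) ≤ 2 * (L W : ℤ))]
    have h3 := hL0 W
    have h4 : (2 * (L W : ℤ)) * 1 ≤ 2 * (L W : ℤ) * |(m : ℤ) - m'| :=
      mul_le_mul_of_nonneg_left h1 (by positivity)
    omega
  have hLe : ∀ᵐ ω ∂P, ∀ W : ℕ, ∃ᶠ m in atTop,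
      Good (fun e => t e ω) a b W (L W) ((fun m : ℕ => -(2 * (L W : ℤ) * m)) m) := by
    rw [ae_all_iff]
    intro W
    apply frequently_good hm hind hG ha hb
    intro m m' hmm
    have h1 : (1 : ℤ) ≤ |(m' : ℤ) - m| := Int.one_le_abs (by omega)
    have h2 : -(2 * (L W : ℤ) * m) - -(2 * (L W : ℤ) * m') = 2 * (L W : ℤ) * (m' - m) := by ring
    rw [h2, abs_mul, abs_of_nonneg (by positivity : (0 : ℤ) ≤ 2 * (L W : ℤ))]
    have h3 := hL0 W
    have h4 : (2 * (L W : ℤ)) * 1 ≤ 2 * (L W : ℤ) * |(m' : ℤ) - m| :=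
      mul_le_mul_of_nonneg_left h1 (by positivity)
    omega
  filter_upwards [hnn, hR, hLe] with ω hω hRω hLω
  intro v hv W
  by_contra hcon
  push Not at hcon
  refine no_ray hω ha0 (hL0 W) (hL1 W) ?_ ?_ hv fun k => abs_le.1 (hcon k)
  · intro N
    obtain ⟨m, hm1, hm2⟩ := (frequently_atTop.1 (hRω W)) N.toNat
    refine ⟨_, ?_, hm2⟩
    have h3 := hL0 W
    have h4 : (N.toNat : ℤ) ≤ m := by exact_mod_cast hm1
    have h5 : N ≤ N.toNat := Int.self_le_toNat N
    have h6 : (1 : ℤ) * m ≤ 2 * (L W : ℤ) * m :=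
      mul_le_mul_of_nonneg_right (by omega) (by positivity)
    linarith
  · intro N
    obtain ⟨m, hm1, hm2⟩ := (frequently_atTop.1 (hLω W)) (-N).toNat
    refine ⟨_, ?_, hm2⟩
    have h3 := hL0 W
    have h4 : ((-N).toNat : ℤ) ≤ m := by exact_mod_cast hm1
    have h5 : -N ≤ (-N).toNat := Int.self_le_toNat (-N)
    have h6 : (1 : ℤ) * m ≤ 2 * (L W : ℤ) * m :=
      mul_le_mul_of_nonneg_right (by omega) (by positivity)
    linarith

end Vale.Agent.P158
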