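import Vale.Agent.Lib.P158.Prob

/-! # P158: the reflection in the diagonal, nondegenerate laws -/

namespace Vale.Agent.P158

open MeasureTheory ProbabilityTheory Filter
open scoped ENNReal

/-- the reflection on edges -/
def swapE (e : Edge) : Edge := ((e.1.2, e.1.1), !e.2)

theorem swapE_swapE (e : Edge) : swapE (swapE e) = e := by
  unfold swapE
  simp

theorem Adj.swap {u v : Vert} (h : Adj u v) : Adj u.swap v.swap := by
  unfold Adj at *
  rw [Prod.fst_swap, Prod.fst_swap, Prod.snd_swap, Prod.snd_swap, add_comm]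
  exact h

theorem edge_swap {u v : Vert} (h : Adj u v) : edge u.swap v.swap = swapE (edge u v) := by
  unfold Adj at h
  unfold edge swapE
  simp only [Prod.fst_swap, Prod.snd_swap]
  congr 1
  by_cases h1 : u.1 = v.1
  · have h2 : u.2 ≠ v.2 := by
      intro h2
      rw [h1, h2] at h
      simp at h
    simp [h1, h2]
  · have h2 : u.2 = v.2 := by
      have h3 : |u.1 - v.1| ≠ 0 := by
        rw [abs_ne_zero]
        omega
      have h4 := abs_nonneg (u.1 - v.1)
      have h5 := abs_nonneg (u.2 - v.2)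
      have h6 : |u.2 - v.2| = 0 := by omega
      rw [abs_eq_zero] at h6
      omega
    simp [h1, h2]

theorem PathCost.swap {w : Edge → ℝ} {x y : Vert} {c : ℝ} (h : PathCost w x y c) :
    PathCost (fun e => w (swapE e)) x.swap y.swap c := by
  induction h with
  | refl => exact PathCost.refl _
  | step y z c _ hadj ih =>
    have h1 := PathCost.step _ _ _ _ ih hadj.swap
    rw [edge_swap hadj, swapE_swapE] at h1
    exact h1

theorem T_swap (w : Edge → ℝ) (x y : Vert) :
    T (fun e => w (swapE e)) x.swap y.swap = T w x y := by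
  unfold T
  congr 1
  ext c
  constructor
  · intro h
    have h1 := PathCost.swap h
    simp only [swapE_swapE, Prod.swap_swap] at h1
    exact h1
  · intro h
    exact h.swap

theorem IsRay.swap {w : Edge → ℝ} {v : ℕ → Vert} (h : IsRay w v) :
    IsRay (fun e => w (swapE e)) fun k => (v k).swap where
  inj := Prod.swap_injective.comp h.inj
  adj := fun k => (h.adj k).swap
  geo := by
    intro i j hij
    rw [T_swap, ← h.geo i j hij]
    refine Finset.sum_congr rfl fun k _ => ?_
    rw [edge_swap (h.adj k), swapE_swapE]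

variable {Ω : Type*} [MeasurableSpace Ω] {P : Measure Ω} [IsProbabilityMeasure P]
  {t : Edge → Ω → ℝ} {G : Measure ℝ}

/-- **Columns.** -/
theorem unbounded_fst (hm : ∀ e, Measurable (t e)) (hind : iIndepFun t P)
    (hG : ∀ e, P.map (t e) = G) (h0 : G (Set.Iio 0) = 0) {a b : ℝ} (hab : a < b)
    (ha : G (Set.Iic a) ≠ 0) (hb : G (Set.Ici b) ≠ 0) :
    ∀ᵐ ω ∂P, ∀ v : ℕ → Vert, IsRay (fun e => t e ω) v → ∀ W : ℕ, ∃ k, (W : ℤ) < |(v k).1| := by
  have hinj : Function.Injective swapE := fun e e' h => by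
    rw [← swapE_swapE e, h, swapE_swapE]
  have h1 := unbounded_snd (P := P) (t := fun e => t (swapE e)) (fun e => hm _)
    (hind.precomp hinj) (fun e => hG _) h0 hab ha hb
  filter_upwards [h1] with ω hω
  intro v hv W
  exact hω _ hv.swap W

/-- for a law not concentrated in a point there are two different levels -/
theorem exists_lt_of_nondeg (G : Measure ℝ) [IsProbabilityMeasure G] (hna : ∀ x, G {x} ≠ 1) :
    ∃ a b : ℝ, a < b ∧ G (Set.Iic a) ≠ 0 ∧ G (Set.Ici b) ≠ 0 := by
  by_contra hcon
  push Not at hcon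
  -- some `Iic n` has positive measure, some `Ici (-n)` too
  have hex : ∃ x : ℝ, G (Set.Iic x) ≠ 0 := by
    by_contra h
    push Not at h
    have h1 : G (⋃ n : ℕ, Set.Iic (n : ℝ)) = 0 := measure_iUnion_null fun n => h n
    have h2 : (⋃ n : ℕ, Set.Iic (n : ℝ)) = Set.univ := by
      rw [Set.eq_univ_iff_forall]
      intro x
      obtain ⟨n, hn⟩ := exists_nat_ge x
      exact Set.mem_iUnion.2 ⟨n, hn⟩
    rw [h2, measure_univ] at h1
    exact one_ne_zero h1
  have hbdd : BddBelow {x : ℝ | G (Set.Iic x) ≠ 0} := by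
    by_contra h
    have h1 : ∀ n : ℕ, ∃ x, x < -(n : ℝ) ∧ G (Set.Iic x) ≠ 0 := by
      intro n
      rw [not_bddBelow_iff] at h
      obtain ⟨x, hx, hlt⟩ := h (-(n : ℝ))
      exact ⟨x, hlt, hx⟩
    have h2 : G (⋃ n : ℕ, Set.Ici (-(n : ℝ))) = 0 := by
      refine measure_iUnion_null fun n => ?_
      obtain ⟨x, hx, hne⟩ := h1 n
      exact hcon x _ hx hne
    have h3 : (⋃ n : ℕ, Set.Ici (-(n : ℝ))) = Set.univ := by
      rw [Set.eq_univ_iff_forall]
      intro x
      obtain ⟨n, hn⟩ := exists_nat_ge (-x)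
      exact Set.mem_iUnion.2 ⟨n, by rw [Set.mem_Ici]; linarith⟩
    rw [h3, measure_univ] at h2
    exact one_ne_zero h2
  set s := sInf {x : ℝ | G (Set.Iic x) ≠ 0} with hs
  have hlow : ∀ x, x < s → G (Set.Iic x) = 0 := fun x hx => by
    by_contra h
    exact absurd (csInf_le hbdd h) (not_le.2 hx)
  have hhigh : ∀ x, s < x → G (Set.Ici x) = 0 := fun x hx => by
    obtain ⟨y, hy, hyx⟩ := exists_lt_of_csInf_lt hex hx
    exact hcon y x hyx hy
  have hIio : G (Set.Iio s) = 0 := by
    have h1 : Set.Iio s ⊆ ⋃ n : ℕ, Set.Iic (s - 1 / ((n : ℝ) + 1)) := by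
      intro x hx
      obtain ⟨n, hn⟩ := exists_nat_one_div_lt (sub_pos.2 (Set.mem_Iio.1 hx))
      exact Set.mem_iUnion.2 ⟨n, by rw [Set.mem_Iic]; linarith⟩
    refine measure_mono_null h1 (measure_iUnion_null fun n => hlow _ ?_)
    have : (0 : ℝ) < 1 / ((n : ℝ) + 1) := by positivity
    linarith
  have hIoi : G (Set.Ioi s) = 0 := by
    have h1 : Set.Ioi s ⊆ ⋃ n : ℕ, Set.Ici (s + 1 / ((n : ℝ) + 1)) := by
      intro x hx
      obtain ⟨n, hn⟩ := exists_nat_one_div_lt (sub_pos.2 (Set.mem_Ioi.1 hx))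
      exact Set.mem_iUnion.2 ⟨n, by rw [Set.mem_Ici]; linarith⟩
    refine measure_mono_null h1 (measure_iUnion_null fun n => hhigh _ ?_)
    have : (0 : ℝ) < 1 / ((n : ℝ) + 1) := by positivity
    linarith
  have huniv : (Set.univ : Set ℝ) ⊆ Set.Iio s ∪ ({s} ∪ Set.Ioi s) := by
    intro x _
    rcases lt_trichotomy x s with h | h | h
    · exact Or.inl h
    · exact Or.inr (Or.inl h)
    · exact Or.inr (Or.inr h)
  have h1 : G Set.univ ≤ 0 + (G {s} + 0) := by
    refine (measure_mono huniv).trans ((measure_union_le _ _).trans ?_)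
    rw [hIio]
    gcongr
    refine (measure_union_le _ _).trans ?_
    rw [hIoi]
  rw [measure_univ, zero_add, add_zero] at h1
  exact hna s (le_antisymm prob_le_one h1)

/-- bigeodesics -/
structure IsBigeodesic (w : Edge → ℝ) (v : ℤ → Vert) : Prop where
  inj : Function.Injective v
  adj : ∀ k, Adj (v k) (v (k + 1))
  geo : ∀ i j, i < j → ∑ k ∈ Finset.Ico i j, w (edge (v k) (v (k + 1))) = T w (v i) (v j)

theorem T_comm (w : Edge → ℝ) (x y : Vert) : T w x y = T w y x := by
  unfold T
  congr 1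
  ext c
  exact ⟨fun h => h.symm, fun h => h.symm⟩

theorem IsBigeodesic.forward {w : Edge → ℝ} {v : ℤ → Vert} (h : IsBigeodesic w v) :
    IsRay w fun k : ℕ => v k where
  inj := h.inj.comp Nat.cast_injective
  adj := fun k => by
    have := h.adj k
    push_cast
    exact this
  geo := by
    intro i j hij
    rw [← h.geo i j (by exact_mod_cast hij)]
    refine Finset.sum_bij (fun (k : ℕ) _ => (k : ℤ)) ?_ ?_ ?_ ?_
    · intro k hk
      rw [Finset.mem_Ico] at hk ⊢
      omega
    · intro k _ k' _ hkk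
      exact_mod_cast hkk
    · intro k hk
      rw [Finset.mem_Ico] at hk
      exact ⟨k.toNat, by rw [Finset.mem_Ico]; omega, by omega⟩
    · intro k _
      push_cast
      rfl

theorem IsBigeodesic.backward {w : Edge → ℝ} {v : ℤ → Vert} (h : IsBigeodesic w v) :
    IsRay w fun k : ℕ => v (-k) where
  inj := by
    intro k k' hkk
    have := h.inj hkk
    omega
  adj := fun k => by
    have h1 := (h.adj (-((k : ℤ) + 1))).symm
    have h2 : -((k : ℤ) + 1) + 1 = -k := by ring
    rw [h2] at h1
    push_cast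
    exact h1
  geo := by
    intro i j hij
    rw [T_comm, ← h.geo (-j) (-i) (by omega)]
    refine Finset.sum_bij (fun (k : ℕ) _ => -((k : ℤ) + 1)) ?_ ?_ ?_ ?_
    · intro k hk
      rw [Finset.mem_Ico] at hk ⊢
      omega
    · intro k _ k' _ hkk
      omega
    · intro k hk
      rw [Finset.mem_Ico] at hk
      exact ⟨(-k - 1).toNat, by rw [Finset.mem_Ico]; omega, by omega⟩
    · intro k _
      rw [edge_comm]
      have h2 : -((k : ℤ) + 1) + 1 = -k := by ring
      rw [h2]
      push_cast
      rfl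

end Vale.Agent.P158
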